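import Vale.Agent.P359.CertB

/-! Tables of linear forms and the quadratic form at the empty set. -/

namespace Vale.Agent.P359

open Finset

def cV2 (m : ℕ) : CLF := cmrg (cbF m cF0 0) []
def cV3 (m a : ℕ) : CLF := cmrg (ccop a (cbF m cF0) 0) []
def cV4 (m m2 : ℕ) : CLF := cmrg (cbF m2 (cbF m cF0) 0) []

def cT2 : List CLF :=
  [[(-2, 3)], [(-4, 5)], [(-2, 6), (-6, 9)], [(-4, 10), (-8, 17)], [(-2, 12), (-6, 18), (-10,
  33)], [(-4, 20), (-8, 34), (-12, 65)], [(-2, 24), (-6, 36), (-10, 66), (-14, 129)], [(-4, 40),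
  (-8, 68), (-12, 130), (-16, 257)]]

def cT3 : List (List CLF) :=
  [[[], [], [(-2, 7)], [(-2, 11)], [(-2, 19)], [(-2, 35)], [(-2, 67)], [(-2, 131)], [(-2, 259)]],
  [[], [(4, 7)], [], [(-4, 13)], [(-4, 21)], [(-4, 37)], [(-4, 69)], [(-4, 133)], [(-4, 261)]],
  [[(-2, 7)], [(6, 11)], [(6, 13)], [(-2, 14)], [(-2, 22), (-6, 25)], [(-2, 38), (-6, 41)], [(-2,
  70), (-6, 73)], [(-2, 134), (-6, 137)], [(-2, 262), (-6, 265)]], [[(-4, 11)], [(8, 19)], [(4,
  14), (8, 21)], [(8, 25)], [(-4, 26)], [(-4, 42), (-8, 49)], [(-4, 74), (-8, 81)], [(-4, 138),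
  (-8, 145)], [(-4, 266), (-8, 273)]], [[(-2, 13), (-6, 19)], [(-2, 14), (10, 35)], [(6, 22),
  (10, 37)], [(6, 26), (10, 41)], [(-2, 28), (10, 49)], [(-2, 44), (-6, 50)], [(-2, 76), (-6,
  82), (-10, 97)], [(-2, 140), (-6, 146), (-10, 161)], [(-2, 268), (-6, 274), (-10, 289)]],
  [[(-4, 21), (-8, 35)], [(-4, 22), (12, 67)], [(8, 38), (12, 69)], [(4, 28), (8, 42), (12, 73)],
  [(8, 50), (12, 81)], [(-4, 52), (12, 97)], [(-4, 84), (-8, 98)], [(-4, 148), (-8, 162), (-12,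
  193)], [(-4, 276), (-8, 290), (-12, 321)]], [[(-2, 25), (-6, 37), (-10, 67)], [(-2, 26), (-6,
  38), (14, 131)], [(-2, 28), (10, 70), (14, 133)], [(6, 44), (10, 74), (14, 137)], [(6, 52),
  (10, 82), (14, 145)], [(-2, 56), (10, 98), (14, 161)], [(-2, 88), (-6, 100), (14, 193)], [(-2,
  152), (-6, 164), (-10, 194)], [(-2, 280), (-6, 292), (-10, 322), (-14, 385)]], [[(-4, 41), (-8,
  69), (-12, 131)], [(-4, 42), (-8, 70), (16, 259)], [(-4, 44), (12, 134), (16, 261)], [(8, 76),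
  (12, 138), (16, 265)], [(4, 56), (8, 84), (12, 146), (16, 273)], [(8, 100), (12, 162), (16,
  289)], [(-4, 104), (12, 194), (16, 321)], [(-4, 168), (-8, 196), (16, 385)], [(-4, 296), (-8,
  324), (-12, 386)]]]

def cT4 : List (List CLF) :=
  [[[], [], [], [], [(4, 15)], [(8, 23)], [(4, 27), (12, 39)], [(8, 43), (16, 71)]], [[], [], [],
  [(-16, 15)], [(-24, 23)], [(-32, 39)], [(8, 29), (-40, 71)], [(16, 45), (-48, 135)]], [[], [],
  [(24, 15)], [(16, 23)], [(-36, 27), (20, 39)], [(-24, 29), (-48, 43), (24, 71)], [(4, 30),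
  (-36, 45), (-60, 75), (28, 135)], [(8, 46), (-48, 77), (-72, 139), (32, 263)]], [[], [(-16,
  15)], [(16, 23)], [(64, 27)], [(16, 29), (40, 43)], [(-16, 30), (-64, 51), (48, 75)], [(-24,
  46), (-48, 53), (-80, 83), (56, 139)], [(-32, 57), (-32, 78), (-64, 85), (-96, 147), (64,
  267)]], [[(4, 15)], [(-24, 23)], [(-36, 27), (20, 39)], [(16, 29), (40, 43)], [(24, 30), (40,
  45), (120, 51)], [(16, 46), (40, 53), (24, 77), (72, 83)], [(-36, 54), (20, 57), (20, 78),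
  (-100, 99), (28, 141), (84, 147)], [(-24, 58), (-48, 86), (-80, 101), (24, 142), (-120, 163),
  (32, 269), (96, 275)]], [[(8, 23)], [(-32, 39)], [(-24, 29), (-48, 43), (24, 71)], [(-16, 30),
  (-64, 51), (48, 75)], [(16, 46), (40, 53), (24, 77), (72, 83)], [(64, 54), (96, 85), (192,
  99)], [(16, 58), (40, 86), (24, 89), (72, 101), (56, 149), (112, 163)], [(-16, 60), (-64, 102),
  (48, 105), (48, 150), (-144, 195), (64, 277), (128, 291)]], [[(4, 27), (12, 39)], [(8, 29),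
  (-40, 71)], [(4, 30), (-36, 45), (-60, 75), (28, 135)], [(-24, 46), (-48, 53), (-80, 83), (56,
  139)], [(-36, 54), (20, 57), (20, 78), (-100, 99), (28, 141), (84, 147)], [(16, 58), (40, 86),
  (24, 89), (72, 101), (56, 149), (112, 163)], [(24, 60), (40, 90), (120, 102), (56, 153), (168,
  165), (280, 195)], [(16, 92), (40, 106), (24, 154), (72, 166), (56, 169), (112, 197), (32,
  281), (96, 293), (160, 323)]], [[(8, 43), (16, 71)], [(16, 45), (-48, 135)], [(8, 46), (-48,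
  77), (-72, 139), (32, 263)], [(-32, 57), (-32, 78), (-64, 85), (-96, 147), (64, 267)], [(-24,
  58), (-48, 86), (-80, 101), (24, 142), (-120, 163), (32, 269), (96, 275)], [(-16, 60), (-64,
  102), (48, 105), (48, 150), (-144, 195), (64, 277), (128, 291)], [(16, 92), (40, 106), (24,
  154), (72, 166), (56, 169), (112, 197), (32, 281), (96, 293), (160, 323)], [(64, 108), (96,
  170), (192, 198), (128, 297), (256, 325), (384, 387)]]]

def cL2 (m : ℕ) : CLF := cT2.getD m []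
def cL3 (m a : ℕ) : CLF := (cT3.getD m []).getD a []
def cL4 (m m2 : ℕ) : CLF := (cT4.getD m []).getD m2 []

theorem cV2_eq : ∀ m < 8, cleq (cV2 m) (cL2 m) = true := by decide +kernel
theorem cV3_eq : ∀ m < 8, ∀ a < 9, cleq (cV3 m a) (cL3 m a) = true := by decide +kernel
theorem cV4_eq : ∀ m < 8, ∀ m2 < 8, cleq (cV4 m m2) (cL4 m m2) = true := by decide +kernel

def cgI (m : ℕ) : ℤ := [18668, 62, 1302, 3540, 12546, 6930, 11925, 63630].getD m 0
def cyI (n m m' : ℕ) : ℤ := ((yT.getD n []).getD m []).getD m' 0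
def czI (n m m' : ℕ) : ℤ := ((zT.getD n []).getD m []).getD m' 0

def cQ2 : CQ 9 → CQ 9 := cfor 8 fun m => cprod (cgI m) (cL2 m) (cL2 m)

def cQ3 : CQ 9 → CQ 9 :=
  cfor 8 fun m => cfor 8 fun m' => cfor 9 fun a => cfor 9 fun a' q =>
    if m + a = m' + a' then cprod (80 * cyI (m + a) m m') (cL3 m a) (cL3 m' a') q else q

def cQ4 : CQ 9 → CQ 9 :=
  cfor 8 fun m => cfor 8 fun m2 => cfor 8 fun m' => cfor 8 fun m2' q =>
    if m + m2 = m' + m2' then cprod (40 * czI (m + m2) m m') (cL4 m m2) (cL4 m' m2') q else q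

def cflat : (k : ℕ) → ℕ → ℕ → CQ k → List (ℕ × CLF)
  | 0, off, _, q => if q = [] then [] else [(off, q)]
  | k + 1, off, mul, (a, b) => cflat k off (2 * mul) a ++ cflat k (off + mul) (2 * mul) b

end Vale.Agent.P359
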